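import Mathlib

/-!
# P047: an abstract bound from a polynomial (Wald-type) identity

A polynomial identity in one real variable gives an identity of coefficients; together with a
binomial Jensen inequality this bounds a sum of absolute values.
-/

namespace Vale.Agent.Lib.P047.H36

open Finset Polynomial

/-- STEP A: the polynomial identity gives an identity of coefficients. -/
theorem coeff_identity {ι : Type*} [Fintype ι] (k : ℕ) (c p : ι → ℕ) (M : ℝ)
    (hid : ∀ a : ℝ, 0 < a →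
      ∑ x, (2 : ℝ) ^ (c x) * a ^ (p x) * (a + 1) ^ (k - c x) = M * (a + 1) ^ k) (P : ℕ) :
    ∑ x, (2 : ℝ) ^ (c x) * (if p x ≤ P then ((k - c x).choose (P - p x) : ℝ) else 0)
      = M * (k.choose P : ℝ) := by
  have hpoly : (∑ x, C ((2 : ℝ) ^ (c x)) * (X ^ (p x) * (X + 1) ^ (k - c x)) : ℝ[X])
      = C M * (X + 1) ^ k := by
    apply Polynomial.eq_of_infinite_eval_eq
    refine Set.Infinite.mono ?_ (Set.Ioi_infinite (0 : ℝ))
    intro a ha
    have h := hid a ha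
    show eval a (∑ x, C ((2 : ℝ) ^ (c x)) * (X ^ (p x) * (X + 1) ^ (k - c x)) : ℝ[X])
      = eval a (C M * (X + 1) ^ k)
    simp only [eval_finsetSum, eval_mul, eval_C, eval_pow, eval_X, eval_add, eval_one]
    rw [← h]
    refine Finset.sum_congr rfl fun x _ => ?_
    ring
  have hcoeff := congrArg (fun q : ℝ[X] => q.coeff P) hpoly
  simp only [finsetSum_coeff, coeff_C_mul, coeff_X_pow_mul', coeff_X_add_one_pow] at hcoeff
  exact hcoeff

/-- STEP B: binomial Jensen inequality. -/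
theorem binomial_jensen (m : ℕ) (y : ℝ) :
    (2 : ℝ) ^ m * |y| ≤
      ∑ r ∈ range (m + 1), (m.choose r : ℝ) * |y + 2 * (r : ℝ) - (m : ℝ)| := by
  have hsum : ∑ r ∈ range (m + 1), (m.choose r : ℝ) = 2 ^ m := by
    exact_mod_cast Nat.sum_range_choose m
  have hzero : ∑ r ∈ range (m + 1), (m.choose r : ℝ) * (2 * (r : ℝ) - (m : ℝ)) = 0 := by
    have hrefl : ∑ j ∈ range (m + 1), (m.choose (m + 1 - 1 - j) : ℝ) *
          (2 * ((m + 1 - 1 - j : ℕ) : ℝ) - (m : ℝ))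
        = ∑ j ∈ range (m + 1), (m.choose j : ℝ) * (2 * (j : ℝ) - (m : ℝ)) :=
      Finset.sum_range_reflect (fun r => (m.choose r : ℝ) * (2 * (r : ℝ) - (m : ℝ))) (m + 1)
    have hneg : ∑ j ∈ range (m + 1), (m.choose (m + 1 - 1 - j) : ℝ) *
          (2 * ((m + 1 - 1 - j : ℕ) : ℝ) - (m : ℝ))
        = ∑ j ∈ range (m + 1), -((m.choose j : ℝ) * (2 * (j : ℝ) - (m : ℝ))) := by
      refine Finset.sum_congr rfl fun j hj => ?_
      have hjm : j ≤ m := Nat.lt_succ_iff.mp (Finset.mem_range.mp hj)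
      have e : m + 1 - 1 - j = m - j := by omega
      rw [e, Nat.choose_symm hjm, Nat.cast_sub hjm]
      ring
    rw [hneg, Finset.sum_neg_distrib] at hrefl
    linarith
  have hmain : (2 : ℝ) ^ m * y =
      ∑ r ∈ range (m + 1), (m.choose r : ℝ) * (y + 2 * (r : ℝ) - (m : ℝ)) := by
    have h1 : ∑ r ∈ range (m + 1), (m.choose r : ℝ) * (y + 2 * (r : ℝ) - (m : ℝ))
        = (∑ r ∈ range (m + 1), (m.choose r : ℝ)) * y
          + ∑ r ∈ range (m + 1), (m.choose r : ℝ) * (2 * (r : ℝ) - (m : ℝ)) := by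
      rw [Finset.sum_mul, ← Finset.sum_add_distrib]
      refine Finset.sum_congr rfl fun r _ => ?_
      ring
    rw [h1, hsum, hzero, add_zero]
  calc (2 : ℝ) ^ m * |y| = |(2 : ℝ) ^ m * y| := by
        rw [abs_mul, abs_of_pos (by positivity : (0 : ℝ) < 2 ^ m)]
    _ = |∑ r ∈ range (m + 1), (m.choose r : ℝ) * (y + 2 * (r : ℝ) - (m : ℝ))| := by
        rw [hmain]
    _ ≤ ∑ r ∈ range (m + 1), |(m.choose r : ℝ) * (y + 2 * (r : ℝ) - (m : ℝ))| :=
        Finset.abs_sum_le_sum_abs _ _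
    _ = ∑ r ∈ range (m + 1), (m.choose r : ℝ) * |y + 2 * (r : ℝ) - (m : ℝ)| := by
        refine Finset.sum_congr rfl fun r _ => ?_
        rw [abs_mul, abs_of_nonneg (Nat.cast_nonneg _)]

/-- STEP C for one point: binomial Jensen, reindexed by `P = p + r`. -/
theorem per_point {k cx px : ℕ} (hpc : px ≤ cx) (hck : cx ≤ k) :
    (2 : ℝ) ^ (k - cx) * |2 * (px : ℝ) - (cx : ℝ)| ≤
      ∑ P ∈ range (k + 1),
        (if px ≤ P then ((k - cx).choose (P - px) : ℝ) else 0) * |2 * (P : ℝ) - (k : ℝ)| := by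
  have hB := binomial_jensen (k - cx) (2 * (px : ℝ) - (cx : ℝ))
  have hcast : ((k - cx : ℕ) : ℝ) = (k : ℝ) - (cx : ℝ) := Nat.cast_sub hck
  refine le_trans hB ?_
  have himg : ∑ r ∈ range (k - cx + 1), ((k - cx).choose r : ℝ) *
        |2 * (px : ℝ) - (cx : ℝ) + 2 * (r : ℝ) - ((k - cx : ℕ) : ℝ)|
      = ∑ P ∈ (range (k - cx + 1)).image (fun r => px + r),
        (if px ≤ P then ((k - cx).choose (P - px) : ℝ) else 0) * |2 * (P : ℝ) - (k : ℝ)| := by
    rw [Finset.sum_image (fun a _ b _ h => Nat.add_left_cancel h)]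
    refine Finset.sum_congr rfl fun r _ => ?_
    have e : 2 * (px : ℝ) - (cx : ℝ) + 2 * (r : ℝ) - ((k : ℝ) - (cx : ℝ))
        = 2 * ((px + r : ℕ) : ℝ) - (k : ℝ) := by
      push_cast
      ring
    rw [if_pos (Nat.le_add_right px r), Nat.add_sub_cancel_left, hcast, e]
  rw [himg]
  refine Finset.sum_le_sum_of_subset_of_nonneg ?_ ?_
  · intro P hP
    obtain ⟨r, hr, rfl⟩ := Finset.mem_image.mp hP
    have hr' := Finset.mem_range.mp hr
    exact Finset.mem_range.mpr (by omega)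
  · intro P _ _
    refine mul_nonneg ?_ (abs_nonneg _)
    split_ifs
    · exact Nat.cast_nonneg _
    · exact le_refl _

/-- The abstract bound. -/
theorem abstract_bound {ι : Type*} [Fintype ι] (k : ℕ) (c p : ι → ℕ) (M : ℝ)
    (hpc : ∀ x, p x ≤ c x) (hck : ∀ x, c x ≤ k)
    (hid : ∀ a : ℝ, 0 < a →
      ∑ x, (2 : ℝ) ^ (c x) * a ^ (p x) * (a + 1) ^ (k - c x) = M * (a + 1) ^ k) :
    ∑ x, |2 * (p x : ℝ) - (c x : ℝ)|
      ≤ M * (∑ P ∈ Finset.range (k + 1), (k.choose P : ℝ) * |2 * (P : ℝ) - (k : ℝ)|) / 2 ^ k := by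
  rw [le_div_iff₀ (by positivity : (0 : ℝ) < 2 ^ k)]
  have hx : ∀ x, |2 * (p x : ℝ) - (c x : ℝ)| * 2 ^ k ≤
      (2 : ℝ) ^ (c x) * ∑ P ∈ range (k + 1),
        (if p x ≤ P then ((k - c x).choose (P - p x) : ℝ) else 0) * |2 * (P : ℝ) - (k : ℝ)| := by
    intro x
    have h := per_point (hpc x) (hck x)
    have h2 : (2 : ℝ) ^ k = 2 ^ (c x) * 2 ^ (k - c x) := by
      rw [← pow_add, Nat.add_sub_cancel' (hck x)]
    calc |2 * (p x : ℝ) - (c x : ℝ)| * 2 ^ k
        = (2 : ℝ) ^ (c x) * ((2 : ℝ) ^ (k - c x) * |2 * (p x : ℝ) - (c x : ℝ)|) := by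
          rw [h2]
          ring
      _ ≤ _ := mul_le_mul_of_nonneg_left h (by positivity)
  have h1 : ∀ x, (2 : ℝ) ^ (c x) * ∑ P ∈ range (k + 1),
        (if p x ≤ P then ((k - c x).choose (P - p x) : ℝ) else 0) * |2 * (P : ℝ) - (k : ℝ)|
      = ∑ P ∈ range (k + 1), (2 : ℝ) ^ (c x) *
          (if p x ≤ P then ((k - c x).choose (P - p x) : ℝ) else 0) *
            |2 * (P : ℝ) - (k : ℝ)| := by
    intro x
    rw [Finset.mul_sum]
    refine Finset.sum_congr rfl fun P _ => ?_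
    ring
  calc (∑ x, |2 * (p x : ℝ) - (c x : ℝ)|) * 2 ^ k
      = ∑ x, |2 * (p x : ℝ) - (c x : ℝ)| * 2 ^ k := Finset.sum_mul _ _ _
    _ ≤ ∑ x, (2 : ℝ) ^ (c x) * ∑ P ∈ range (k + 1),
          (if p x ≤ P then ((k - c x).choose (P - p x) : ℝ) else 0) *
            |2 * (P : ℝ) - (k : ℝ)| :=
        Finset.sum_le_sum fun x _ => hx x
    _ = ∑ P ∈ range (k + 1), (∑ x, (2 : ℝ) ^ (c x) *
          (if p x ≤ P then ((k - c x).choose (P - p x) : ℝ) else 0)) *
            |2 * (P : ℝ) - (k : ℝ)| := by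
        rw [Finset.sum_congr rfl fun x _ => h1 x, Finset.sum_comm]
        refine Finset.sum_congr rfl fun P _ => ?_
        rw [Finset.sum_mul]
    _ = ∑ P ∈ range (k + 1), (M * (k.choose P : ℝ)) * |2 * (P : ℝ) - (k : ℝ)| := by
        refine Finset.sum_congr rfl fun P _ => ?_
        rw [coeff_identity k c p M hid P]
    _ = M * ∑ P ∈ range (k + 1), (k.choose P : ℝ) * |2 * (P : ℝ) - (k : ℝ)| := by
        rw [Finset.mul_sum]
        refine Finset.sum_congr rfl fun P _ => ?_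
        ring

end Vale.Agent.Lib.P047.H36
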